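import Mathlib
import Vale.Agent.Lib.P243.Defs
import Vale.Agent.Lib.P243.R3.Defs

/-!
# P243 (R3), module M7: transfer of a calibration to a nearby body

If `hom c (1 - η) '' Ks ⊆ K ⊆ hom c (1 + η) '' Ks` and `g` calibrates `Ks` with constant `Θ`,
then `g ∘ hom c (1 + η)⁻¹` calibrates `K` with constant `Θ / (1 - 12 η)`.

The two facts about `Ahat` that are used (monotonicity, homothety covariance) enter
`M7_good_transfer_of` as hypotheses, in the shape of the skeleton statements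
`M1c_Ahat_mono` and `M1e_Ahat_hom`.
-/

namespace Vale.Agent.Lib.P243.R3.H70

open MeasureTheory Set Vale.Agent.Lib.P243.R3

theorem M7_hom_hom (c : E3) (r s : ℝ) (x : E3) : hom c r (hom c s x) = hom c (r * s) x := by
  simp only [hom]
  module

theorem M7_hom_one (c x : E3) : hom c 1 x = x := by
  simp [hom]

theorem M7_hom_continuous (c : E3) (r : ℝ) : Continuous (hom c r) := by
  unfold hom
  fun_prop

theorem M7_hom_eq_homothety (c : E3) (r : ℝ) : hom c r = ⇑(AffineMap.homothety c r) := by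
  funext x
  simp [hom, AffineMap.homothety_apply, add_comm]

theorem M7_vol_hom_image (c : E3) {r : ℝ} (hr : 0 ≤ r) (A : Set E3) :
    volume (hom c r '' A) = ENNReal.ofReal (r ^ 3) * volume A := by
  rw [M7_hom_eq_homothety, Measure.addHaar_image_homothety]
  congr 2
  have h3 : Module.finrank ℝ E3 = 3 := by simp
  rw [h3, abs_of_nonneg (by positivity)]

/-- The image of `B` under `hom c r` is the preimage of `B` under `hom c r⁻¹`. -/
theorem M7_image_eq_preimage (c : E3) {r : ℝ} (hr : 0 < r) (B : Set E3) :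
    hom c r '' B = hom c r⁻¹ ⁻¹' B := by
  ext x
  constructor
  · rintro ⟨y, hy, rfl⟩
    show hom c r⁻¹ (hom c r y) ∈ B
    rw [M7_hom_hom, inv_mul_cancel₀ hr.ne', M7_hom_one]
    exact hy
  · intro hx
    exact ⟨hom c r⁻¹ x, hx, by rw [M7_hom_hom, mul_inv_cancel₀ hr.ne', M7_hom_one]⟩

/-- Change of variables under a homothety. -/
theorem M7_integral_hom_image (c : E3) {r : ℝ} (hr : 0 < r) {B : Set E3} (hB : MeasurableSet B)
    (g : E3 → ℝ) :
    ∫ x in hom c r '' B, g (hom c r⁻¹ x) = r ^ 3 * ∫ y in B, g y := by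
  have himg := M7_image_eq_preimage c hr B
  have hmeas : MeasurableSet (hom c r '' B) := by
    rw [himg]
    exact (M7_hom_continuous c r⁻¹).measurable hB
  rw [← integral_indicator hmeas, ← integral_indicator hB]
  have h1 : ∀ x, (hom c r '' B).indicator (fun x => g (hom c r⁻¹ x)) x
      = B.indicator g (c + r⁻¹ • (x - c)) := by
    intro x
    rw [himg]
    by_cases hx : hom c r⁻¹ x ∈ B
    · rw [indicator_of_mem (show x ∈ hom c r⁻¹ ⁻¹' B from hx)]
      exact (indicator_of_mem (show c + r⁻¹ • (x - c) ∈ B from hx) g).symm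
    · rw [indicator_of_notMem (show x ∉ hom c r⁻¹ ⁻¹' B from hx)]
      exact (indicator_of_notMem (show c + r⁻¹ • (x - c) ∉ B from hx) g).symm
  rw [integral_congr_ae (Filter.Eventually.of_forall h1)]
  have h2 : ∫ x, B.indicator g (c + r⁻¹ • (x - c)) = ∫ x, B.indicator g (c + r⁻¹ • x) :=
    integral_sub_right_eq_self (fun x => B.indicator g (c + r⁻¹ • x)) c
  have h3 : ∫ x, B.indicator g (c + r⁻¹ • x)
      = |r ^ Module.finrank ℝ E3| • ∫ y, B.indicator g (c + y) :=
    Measure.integral_comp_inv_smul volume (fun y => B.indicator g (c + y)) r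
  have h4 : ∫ y, B.indicator g (c + y) = ∫ y, B.indicator g y :=
    integral_add_left_eq_self (B.indicator g) c
  have h5 : Module.finrank ℝ E3 = 3 := by simp
  rw [h2, h3, h4, h5, abs_of_pos (by positivity), smul_eq_mul]

/-- Shrinking a convex body towards one of its points loses little of the integral. -/
theorem M7_lower {Ks : Set E3} (hKs : Body Ks) {c : E3} (hc : c ∈ Ks) {g : E3 → ℝ}
    (hg : Continuous g) (hg12 : ∀ x, 1 ≤ g x ∧ g x ≤ 2) {ρ : ℝ} (hρ0 : 0 ≤ ρ) (hρ1 : ρ ≤ 1) :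
    (∫ x in Ks, g x) - 2 * ((1 - ρ ^ 3) * (volume Ks).toReal)
      ≤ ∫ x in hom c ρ '' Ks, g x := by
  have hsub : hom c ρ '' Ks ⊆ Ks := by
    rintro _ ⟨y, hy, rfl⟩
    have e : hom c ρ y = (1 - ρ) • c + ρ • y := by
      simp only [hom]
      module
    rw [e]
    exact hKs.conv hc hy (by linarith) hρ0 (by ring)
  have hBc : IsCompact (hom c ρ '' Ks) := hKs.compact.image (M7_hom_continuous c ρ)
  have hBm : MeasurableSet (hom c ρ '' Ks) := hBc.measurableSet
  have hKm : MeasurableSet Ks := hKs.compact.measurableSet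
  have hfin : volume Ks ≠ ⊤ := hKs.compact.measure_lt_top.ne
  have hint : IntegrableOn g Ks volume := hg.continuousOn.integrableOn_compact hKs.compact
  have hdiff : ∫ x in Ks \ hom c ρ '' Ks, g x
      = (∫ x in Ks, g x) - ∫ x in hom c ρ '' Ks, g x :=
    setIntegral_sdiff hBm hint hsub
  have hfin' : volume (Ks \ hom c ρ '' Ks) ≠ ⊤ := measure_ne_top_of_subset sdiff_subset hfin
  have h1 : ∫ x in Ks \ hom c ρ '' Ks, g x ≤ ∫ _x in Ks \ hom c ρ '' Ks, (2 : ℝ) :=
    setIntegral_mono_on (hint.mono_set sdiff_subset) (integrableOn_const hfin')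
      (hKm.diff hBm) (fun x _ => (hg12 x).2)
  rw [setIntegral_const, measureReal_sdiff hsub hBm hfin] at h1
  have hvB : volume.real (hom c ρ '' Ks) = ρ ^ 3 * (volume Ks).toReal := by
    rw [measureReal_def, M7_vol_hom_image c hρ0, ENNReal.toReal_mul,
      ENNReal.toReal_ofReal (by positivity)]
  rw [hvB, measureReal_def, smul_eq_mul] at h1
  have e2 : ((volume Ks).toReal - ρ ^ 3 * (volume Ks).toReal) * 2
      = 2 * ((1 - ρ ^ 3) * (volume Ks).toReal) := by ring
  rw [e2] at h1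
  linarith

/-- Module M7 with the two `Ahat` facts as hypotheses. -/
theorem M7_good_transfer_of
    (hmono : ∀ {K K' : Set E3}, IsCompact K → Convex ℝ K → K.Nonempty → IsCompact K' →
      Convex ℝ K' → K ⊆ K' → ∀ w : E3, Ahat K w ≤ Ahat K' w)
    (hhom : ∀ (c : E3) {r : ℝ}, 0 < r → ∀ (K : Set E3) (w : E3),
      Ahat (hom c r '' K) (r • w) = r ^ 3 * Ahat K w)
    {Ks K : Set E3} (hKs : Body Ks) (hK : Body K) (c : E3) {η : ℝ} (hc : c ∈ Ks)
    (hη0 : 0 < η) (hη : η ≤ 1 / 24) (h1 : hom c (1 - η) '' Ks ⊆ K)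
    (h2 : K ⊆ hom c (1 + η) '' Ks) {g : E3 → ℝ} {Θ : ℝ} (hΘ : 0 < Θ) (hG : Good Ks g Θ) :
    Good K (fun x => g (hom c (1 + η)⁻¹ x)) (Θ / (1 - 12 * η)) := by
  obtain ⟨hgc, hg12, hgood⟩ := hG
  have hr0 : 0 < 1 + η := by linarith
  have hσc : Continuous (hom c (1 + η)⁻¹) := M7_hom_continuous c (1 + η)⁻¹
  have hg'c : Continuous (fun x => g (hom c (1 + η)⁻¹ x)) := hgc.comp hσc
  refine ⟨hg'c, fun x => hg12 _, ?_⟩
  intro p hp q hq
  have hσ : ∀ x ∈ K, hom c (1 + η)⁻¹ x ∈ Ks := by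
    intro x hx
    obtain ⟨y, hy, rfl⟩ := h2 hx
    rw [M7_hom_hom, inv_mul_cancel₀ hr0.ne', M7_hom_one]
    exact hy
  have havg : avgSeg (fun x => g (hom c (1 + η)⁻¹ x)) p q
      = avgSeg g (hom c (1 + η)⁻¹ p) (hom c (1 + η)⁻¹ q) := by
    unfold avgSeg
    refine intervalIntegral.integral_congr (fun t _ => ?_)
    show g (hom c (1 + η)⁻¹ (p + t • (q - p)))
      = g (hom c (1 + η)⁻¹ p + t • (hom c (1 + η)⁻¹ q - hom c (1 + η)⁻¹ p))
    congr 1
    simp only [hom]
    module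
  have hdiff : q - p = (1 + η) • (hom c (1 + η)⁻¹ q - hom c (1 + η)⁻¹ p) := by
    have e : (1 + η) • (hom c (1 + η)⁻¹ q - hom c (1 + η)⁻¹ p)
        = ((1 + η) * (1 + η)⁻¹) • (q - p) := by
      simp only [hom]
      module
    rw [e, mul_inv_cancel₀ hr0.ne', one_smul]
  have hHc : IsCompact (hom c (1 + η) '' Ks) := hKs.compact.image (M7_hom_continuous c (1 + η))
  have hHv : Convex ℝ (hom c (1 + η) '' Ks) := by
    rw [M7_hom_eq_homothety]
    exact hKs.conv.affine_image _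
  have hKne : K.Nonempty := hK.int.mono interior_subset
  have hA1 : Ahat K (q - p)
      ≤ (1 + η) ^ 3 * Ahat Ks (hom c (1 + η)⁻¹ q - hom c (1 + η)⁻¹ p) := by
    calc Ahat K (q - p) ≤ Ahat (hom c (1 + η) '' Ks) (q - p) :=
          hmono hK.compact hK.conv hKne hHc hHv h2 _
      _ = (1 + η) ^ 3 * Ahat Ks (hom c (1 + η)⁻¹ q - hom c (1 + η)⁻¹ p) := by
          rw [hdiff]
          exact hhom c hr0 Ks _
  have havg0 : 0 ≤ avgSeg g (hom c (1 + η)⁻¹ p) (hom c (1 + η)⁻¹ q) := by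
    unfold avgSeg
    apply intervalIntegral.integral_nonneg zero_le_one
    intro t _
    linarith [(hg12 (hom c (1 + η)⁻¹ p + t • (hom c (1 + η)⁻¹ q - hom c (1 + η)⁻¹ p))).1]
  have hgd := hgood _ (hσ p hp) _ (hσ q hq)
  -- the integral of `g` over `Ks` dominates the volume
  have hKsm : MeasurableSet Ks := hKs.compact.measurableSet
  have hfin : volume Ks ≠ ⊤ := hKs.compact.measure_lt_top.ne
  have hint : IntegrableOn g Ks volume := hgc.continuousOn.integrableOn_compact hKs.compact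
  have hV : (volume Ks).toReal ≤ ∫ x in Ks, g x := by
    have h : ∫ _x in Ks, (1 : ℝ) ≤ ∫ x in Ks, g x :=
      setIntegral_mono_on (integrableOn_const hfin) hint hKsm (fun x _ => (hg12 x).1)
    rw [setIntegral_const, measureReal_def, smul_eq_mul, mul_one] at h
    exact h
  have hV0 : 0 ≤ (volume Ks).toReal := ENNReal.toReal_nonneg
  -- the lower bound for the integral over `K`
  have hρ0 : 0 ≤ (1 - η) / (1 + η) := div_nonneg (by linarith) hr0.le
  have hρ1 : (1 - η) / (1 + η) ≤ 1 := (div_le_one hr0).mpr (by linarith)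
  have hρ2 : 1 - (1 - η) / (1 + η) ≤ 2 * η := by
    have e : 1 - (1 - η) / (1 + η) = 2 * η / (1 + η) := by
      field_simp
      ring
    rw [e]
    exact div_le_self (by linarith) (by linarith)
  have hρ3 : 1 - ((1 - η) / (1 + η)) ^ 3 ≤ 6 * η := by
    have e : 1 - ((1 - η) / (1 + η)) ^ 3
        = (1 - (1 - η) / (1 + η)) * (1 + (1 - η) / (1 + η) + ((1 - η) / (1 + η)) ^ 2) := by
      ring
    have h3 : 1 + (1 - η) / (1 + η) + ((1 - η) / (1 + η)) ^ 2 ≤ 3 := by nlinarith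
    have h4 : 0 ≤ 1 - (1 - η) / (1 + η) := by linarith
    rw [e]
    nlinarith
  have himg : hom c (1 - η) '' Ks = hom c (1 + η) '' (hom c ((1 - η) / (1 + η)) '' Ks) := by
    rw [image_image]
    refine image_congr (fun y _ => ?_)
    rw [M7_hom_hom, mul_div_cancel₀ _ hr0.ne']
  have hBm : MeasurableSet (hom c ((1 - η) / (1 + η)) '' Ks) :=
    (hKs.compact.image (M7_hom_continuous c _)).measurableSet
  have hg'int : IntegrableOn (fun x => g (hom c (1 + η)⁻¹ x)) K volume :=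
    hg'c.continuousOn.integrableOn_compact hK.compact
  have hlow : (1 + η) ^ 3 * ((1 - 12 * η) * ∫ x in Ks, g x)
      ≤ ∫ x in K, g (hom c (1 + η)⁻¹ x) := by
    have s1 : ∫ x in hom c (1 - η) '' Ks, g (hom c (1 + η)⁻¹ x)
        ≤ ∫ x in K, g (hom c (1 + η)⁻¹ x) :=
      setIntegral_mono_set hg'int
        (Filter.Eventually.of_forall fun x => by
          show (0 : ℝ) ≤ g (hom c (1 + η)⁻¹ x)
          linarith [(hg12 (hom c (1 + η)⁻¹ x)).1])
        (Filter.Eventually.of_forall h1)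
    have s2 : ∫ x in hom c (1 - η) '' Ks, g (hom c (1 + η)⁻¹ x)
        = (1 + η) ^ 3 * ∫ y in hom c ((1 - η) / (1 + η)) '' Ks, g y := by
      rw [himg]
      exact M7_integral_hom_image c hr0 hBm g
    have s3 := M7_lower hKs hc hgc hg12 hρ0 hρ1
    have s4 : (1 - 12 * η) * ∫ x in Ks, g x
        ≤ ∫ y in hom c ((1 - η) / (1 + η)) '' Ks, g y := by
      have : 2 * ((1 - ((1 - η) / (1 + η)) ^ 3) * (volume Ks).toReal)
          ≤ 12 * η * ∫ x in Ks, g x := by
        have h5 : (1 - ((1 - η) / (1 + η)) ^ 3) * (volume Ks).toReal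
            ≤ 6 * η * ∫ x in Ks, g x :=
          mul_le_mul hρ3 hV hV0 (by linarith)
        linarith
      linarith
    calc (1 + η) ^ 3 * ((1 - 12 * η) * ∫ x in Ks, g x)
        ≤ (1 + η) ^ 3 * ∫ y in hom c ((1 - η) / (1 + η)) '' Ks, g y :=
          mul_le_mul_of_nonneg_left s4 (by positivity)
      _ = ∫ x in hom c (1 - η) '' Ks, g (hom c (1 + η)⁻¹ x) := s2.symm
      _ ≤ ∫ x in K, g (hom c (1 + η)⁻¹ x) := s1
  have h12 : 0 < 1 - 12 * η := by linarith
  rw [havg]
  calc avgSeg g (hom c (1 + η)⁻¹ p) (hom c (1 + η)⁻¹ q) * Ahat K (q - p)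
      ≤ avgSeg g (hom c (1 + η)⁻¹ p) (hom c (1 + η)⁻¹ q)
          * ((1 + η) ^ 3 * Ahat Ks (hom c (1 + η)⁻¹ q - hom c (1 + η)⁻¹ p)) :=
        mul_le_mul_of_nonneg_left hA1 havg0
    _ = (1 + η) ^ 3 * (avgSeg g (hom c (1 + η)⁻¹ p) (hom c (1 + η)⁻¹ q)
          * Ahat Ks (hom c (1 + η)⁻¹ q - hom c (1 + η)⁻¹ p)) := by ring
    _ ≤ (1 + η) ^ 3 * (Θ * ∫ x in Ks, g x) :=
        mul_le_mul_of_nonneg_left hgd (by positivity)
    _ = Θ / (1 - 12 * η) * ((1 + η) ^ 3 * ((1 - 12 * η) * ∫ x in Ks, g x)) := by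
        rw [div_mul_eq_mul_div, eq_div_iff h12.ne']
        ring
    _ ≤ Θ / (1 - 12 * η) * ∫ x in K, g (hom c (1 + η)⁻¹ x) :=
        mul_le_mul_of_nonneg_left hlow (by positivity)

end Vale.Agent.Lib.P243.R3.H70
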